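import Mathlib

/-!
Hilbert 90 in `R ⊗[K] M` for one automorphism, and the two abstract norm computations.
-/

open TensorProduct Finset

namespace Vale.Agent.P022.H17

/-! ### Products along the iterates of an endomorphism of an abelian group -/

section pr

variable {G : Type*} [CommGroup G]

/-- The product of the first `n` iterates. -/
def pr (s : G →* G) (n : ℕ) (x : G) : G := ∏ i ∈ range n, s^[i] x

@[simp] theorem pr_zero (s : G →* G) (x : G) : pr s 0 x = 1 := by simp [pr]

theorem pr_succ (s : G →* G) (n : ℕ) (x : G) : pr s (n + 1) x = pr s n x * s^[n] x :=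
  prod_range_succ _ _

theorem pr_succ' (s : G →* G) (n : ℕ) (x : G) : pr s (n + 1) x = x * s (pr s n x) := by
  induction n with
  | zero => simp [pr]
  | succ n ih =>
    have h1 : s (pr s (n + 1) x) = s (pr s n x) * s^[n + 1] x := by
      rw [pr_succ s n x, map_mul, Function.iterate_succ_apply']
    rw [pr_succ s (n + 1) x, h1, ih, mul_assoc]

theorem iter_mul (s : G →* G) (n : ℕ) (x y : G) : s^[n] (x * y) = s^[n] x * s^[n] y := by
  induction n with
  | zero => rfl
  | succ n ih => simp only [Function.iterate_succ_apply', ih, map_mul]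

theorem iter_div (s : G →* G) (n : ℕ) (x y : G) : s^[n] (x / y) = s^[n] x / s^[n] y := by
  induction n with
  | zero => rfl
  | succ n ih => simp only [Function.iterate_succ_apply', ih, map_div]

theorem iter_pow (s : G →* G) (n k : ℕ) (x : G) : s^[n] (x ^ k) = (s^[n] x) ^ k := by
  induction n with
  | zero => rfl
  | succ n ih => simp only [Function.iterate_succ_apply', ih, map_pow]

theorem iter_fix (s : G →* G) (n : ℕ) {x : G} (hx : s x = x) : s^[n] x = x := by
  induction n with
  | zero => rfl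
  | succ n ih => rw [Function.iterate_succ_apply', ih, hx]

theorem iter_one (s : G →* G) (n : ℕ) : s^[n] 1 = 1 := iter_fix s n (map_one s)

theorem pr_mul (s : G →* G) (n : ℕ) (x y : G) : pr s n (x * y) = pr s n x * pr s n y := by
  simp only [pr, iter_mul, prod_mul_distrib]

theorem pr_div (s : G →* G) (n : ℕ) (x y : G) : pr s n (x / y) = pr s n x / pr s n y := by
  simp only [pr, iter_div, prod_div_distrib]

theorem pr_one (s : G →* G) (n : ℕ) : pr s n 1 = 1 := by simp [pr]

theorem pr_fix (s : G →* G) (n : ℕ) {x : G} (hx : s x = x) : pr s n x = x ^ n := by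
  simp [pr, iter_fix s _ hx]

/-- `s` commutes with its products. -/
theorem map_pr (s : G →* G) (n : ℕ) (x : G) : s (pr s n x) = pr s n (s x) := by
  simp only [pr, map_prod]
  exact prod_congr rfl fun i _ => by
    rw [← Function.iterate_succ_apply' (⇑s) i x, Function.iterate_succ_apply]

/-- A commuting endomorphism commutes with the products. -/
theorem map_pr' (s t : G →* G) (h : ∀ x, s (t x) = t (s x)) (n : ℕ) (x : G) :
    t (pr s n x) = pr s n (t x) := by
  have hi : ∀ i (y : G), t (s^[i] y) = s^[i] (t y) := by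
    intro i
    induction i with
    | zero => intro y; rfl
    | succ i ih => intro y; rw [Function.iterate_succ_apply', ← h, ih,
        Function.iterate_succ_apply']
  simp only [pr, map_prod, hi]

/-- The telescope. -/
theorem map_pr_div (s : G →* G) (n : ℕ) (x : G) : s (pr s n x) / pr s n x = s^[n] x / x := by
  have h1 := pr_succ s n x
  rw [pr_succ' s n x] at h1
  rw [div_eq_div_iff_mul_eq_mul, mul_comm, h1, mul_comm]

theorem pr_div_self (s : G →* G) (n : ℕ) (x : G) : pr s n (s x / x) = s^[n] x / x := by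
  rw [pr_div, ← map_pr, map_pr_div]

/-- The norm in two steps: `N_σ = N_ρ ∘ T` for `ρ = σ ^ l`. -/
theorem pr_pr (s r : G →* G) (l k : ℕ) (hr : ∀ x, r x = s^[l] x) (x : G) :
    pr r k (pr s l x) = pr s (l * k) x := by
  induction k with
  | zero => simp
  | succ k ih =>
    rw [pr_succ, ih, Nat.mul_succ]
    have hrk : ∀ y, r^[k] y = s^[l * k] y := by
      intro y
      have : (r : G → G) = s^[l] := funext hr
      rw [this, ← Function.iterate_mul]
    simp only [pr]
    rw [prod_range_add, hrk]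
    congr 1
    have : ∀ m (t : Finset ℕ), s^[m] (∏ i ∈ t, s^[i] x) = ∏ i ∈ t, s^[m + i] x := by
      intro m t
      classical
      induction t using Finset.induction_on with
      | empty => simp
      | insert a t ha ih' =>
        rw [prod_insert ha, prod_insert ha, iter_mul, ih', Function.iterate_add_apply]
    exact this _ _

/-- Devissage, the step back: if `β ^ k` is a norm for `σ` and Hilbert 90 holds for `ρ = σ ^ l`
of order dividing `k`, then `β` is a norm from the fixed elements of `ρ`. -/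
theorem descend (s r : G →* G) (l k : ℕ) (hr : ∀ x, r x = s^[l] x)
    (h90 : ∀ y, pr r k y = 1 → ∃ z, y = r z / z) {β y : G} (hβ : s β = β)
    (hy : pr s (l * k) y = β ^ k) : ∃ c, r c = c ∧ pr s l c = β := by
  have hrβ : r β = β := by rw [hr, iter_fix s l hβ]
  obtain ⟨z, hz⟩ := h90 (pr s l y / β) (by
    rw [pr_div, pr_pr s r l k hr, hy, pr_fix r k hrβ, div_self'])
  have h3 : pr s l y = β * (r z / z) := by rw [← hz, mul_div_cancel]
  have h5 : r z / z * (z / r z) = 1 := by rw [div_mul_div_cancel, div_self']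
  refine ⟨y * (z / s z), ?_, ?_⟩
  · have h1 : pr s l (y * (z / s z)) = β := by
      rw [pr_mul]
      have h2 : pr s l (z / s z) = z / r z := by
        rw [← inv_div (s z) z, show pr s l (s z / z)⁻¹ = (pr s l (s z / z))⁻¹ from by
          rw [← one_div, pr_div, pr_one, one_div], pr_div_self, hr, inv_div]
      rw [h2, h3, mul_assoc, h5, mul_one]
    have h4 := map_pr_div s l (y * (z / s z))
    rw [h1, hβ, div_self'] at h4
    rw [hr]
    exact (div_eq_one.mp h4.symm)
  · rw [pr_mul]
    have h2 : pr s l (z / s z) = z / r z := by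
      rw [← inv_div (s z) z, show pr s l (s z / z)⁻¹ = (pr s l (s z / z))⁻¹ from by
        rw [← one_div, pr_div, pr_one, one_div], pr_div_self, hr, inv_div]
    rw [h2, h3, mul_assoc, h5, mul_one]

/-- Devissage, the step up: a norm for `ρ = σ ^ l` that is fixed by `σ` is `β ^ k` times a norm
for `σ`, with `β` fixed by `σ`. -/
theorem ascend (s r : G →* G) (l k : ℕ) (hr : ∀ x, r x = s^[l] x)
    (h90 : ∀ y, pr r k y = 1 → ∃ z, y = r z / z) {α u : G} (hα : s α = α)
    (hu : pr r k u = α) : ∃ β w, s β = β ∧ α = β ^ k * pr s (l * k) w := by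
  have hsr : ∀ x, r (s x) = s (r x) := fun x => by
    rw [hr, hr, ← Function.iterate_succ_apply, ← Function.iterate_succ_apply' (⇑s) l x]
  obtain ⟨w, hw⟩ := h90 (s u / u) (by
    rw [pr_div, ← map_pr' r s hsr, hu, hα, div_self'])
  have hβ : s (u / pr s l w) = u / pr s l w := by
    have h1 := map_pr_div s l w
    rw [← hr, ← hw] at h1
    rw [map_div, div_eq_div_iff_mul_eq_mul]
    rw [div_eq_div_iff_mul_eq_mul] at h1
    rw [← h1, mul_comm]
  refine ⟨u / pr s l w, w, hβ, ?_⟩
  have hrβ : r (u / pr s l w) = u / pr s l w := by rw [hr, iter_fix s l hβ]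
  rw [← pr_pr s r l k hr, ← pr_fix r k hrβ, ← pr_mul, div_mul_cancel, hu]

/-- The crossing: from `α = N_σ y` to `β = N_τ z`. -/
theorem cross (s t : G →* G) (n N : ℕ) (hst : ∀ x, s (t x) = t (s x)) (htN : ∀ x, t^[N] x = x)
    (h90 : ∀ y, pr s n y = 1 → ∃ z, y = s z / z) {α y : G} (hα : t α = α)
    (hy : pr s n y = α) :
    ∃ z, t y / y = s z / z ∧ s (pr t N z) = pr t N z ∧ t (pr t N z) = pr t N z := by
  obtain ⟨z, hz⟩ := h90 (t y / y) (by rw [pr_div, ← map_pr' s t hst, hy, hα, div_self'])
  refine ⟨z, hz, ?_, ?_⟩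
  · rw [← div_eq_one, map_pr' t s (fun x => (hst x).symm), ← pr_div, ← hz, pr_div_self, htN,
      div_self']
  · rw [← div_eq_one, map_pr_div, htN, div_self']

/-- The crossing, local part: if `α` is a norm for `σ` of an element fixed by `τ`, then `β` is a
norm for `τ` of an element fixed by `σ`. -/
theorem cross_local (s t : G →* G) (n N : ℕ) (hst : ∀ x, s (t x) = t (s x))
    (htN : ∀ x, t^[N] x = x)
    (h90 : ∀ y, pr s n y = 1 → ∃ z, y = s z / z) {α y z yL : G}
    (hy : pr s n y = α) (hz : t y / y = s z / z) (hyL : t yL = yL) (hL : pr s n yL = α) :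
    ∃ c, s c = c ∧ pr t N c = pr t N z := by
  obtain ⟨u, hu⟩ := h90 (y / yL) (by rw [pr_div, hy, hL, div_self'])
  have hy' : y = s u / u * yL := by rw [← hu, div_mul_cancel]
  refine ⟨z / (t u / u), ?_, ?_⟩
  · have h1 : t y / y = s (t u / u) / (t u / u) := by
      rw [hy', map_mul, map_div, map_div, hyL, hst]
      simp only [div_eq_mul_inv, mul_inv_rev, inv_inv]
      have e : t (s u) * (t u)⁻¹ * yL * (yL⁻¹ * (u * (s u)⁻¹)) =
          t (s u) * (t u)⁻¹ * (yL * yL⁻¹) * (u * (s u)⁻¹) := by
        simp only [mul_assoc]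
      rw [e, mul_inv_cancel, mul_one]
      simp only [mul_assoc, mul_comm, mul_left_comm]
    rw [h1] at hz
    rw [map_div, div_eq_div_iff_mul_eq_mul]
    rw [div_eq_div_iff_mul_eq_mul] at hz
    rw [← hz, mul_comm]
  · rw [pr_div, pr_div_self, htN, div_self', div_one]

end pr

/-! ### Hilbert 90 -/

section h90

variable {K M A : Type*} [Field K] [Infinite K] [Field M] [Algebra K M] [CommRing A]
  [Algebra M A] [Algebra K A] [IsScalarTower K M A]

/-- The Lagrange resolvent can be made a unit. -/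
theorem exists_unit_sum [Finite (MaximalSpectrum A)] (ρ : M ≃ₐ[K] M) (hρ : 0 < orderOf ρ)
    (s : A → A) (a : A) :
    ∃ θ : M, IsUnit (∑ i ∈ range (orderOf ρ), (∏ j ∈ range i, s^[j] a) *
      algebraMap M A ((ρ ^ i) θ)) := by
  classical
  set d := orderOf ρ with hd
  set c : ℕ → A := fun i => ∏ j ∈ range i, s^[j] a with hc
  -- the linear map
  let f : M →ₗ[K] A :=
    { toFun := fun θ => ∑ i ∈ range d, c i * algebraMap M A ((ρ ^ i) θ)
      map_add' := fun x y => by simp only [map_add, mul_add, sum_add_distrib]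
      map_smul' := fun r x => by
        rw [RingHom.id_apply, smul_sum]
        refine sum_congr rfl fun i _ => ?_
        rw [map_smul, Algebra.smul_def r ((ρ ^ i) x), map_mul,
          ← IsScalarTower.algebraMap_apply, Algebra.smul_def, mul_left_comm] }
  have hf : ∀ θ, f θ = ∑ i ∈ range d, c i * algebraMap M A ((ρ ^ i) θ) := fun θ => rfl
  by_contra! hno
  -- every `θ` lies in one of the proper subspaces
  have hcov : (⋃ m : MaximalSpectrum A,
      ((m.asIdeal.restrictScalars K).comap f : Set M)) = Set.univ := by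
    rw [Set.eq_univ_iff_forall]
    intro θ
    obtain ⟨m, hm, hθ⟩ := exists_max_ideal_of_mem_nonunits (hno θ)
    exact Set.mem_iUnion.mpr ⟨⟨m, hm⟩, hθ⟩
  obtain ⟨m, hm⟩ := Subspace.exists_eq_top_of_iUnion_eq_univ hcov
  have hmax := m.isMaximal
  have h1 : ∀ θ, f θ ∈ m.asIdeal := fun θ => by
    have : θ ∈ (m.asIdeal.restrictScalars K).comap f := by rw [hm]; exact Submodule.mem_top
    exact this
  -- the characters
  let χ : Fin d → (M →* A ⧸ m.asIdeal) := fun i =>
    (((Ideal.Quotient.mk m.asIdeal).comp (algebraMap M A)).comp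
      ((ρ ^ (i : ℕ) : M ≃ₐ[K] M) : M →+* M)).toMonoidHom
  have hχ : Function.Injective χ := by
    intro i j hij
    have h2 : ρ ^ (i : ℕ) = ρ ^ (j : ℕ) := by
      ext x
      have h3 : χ i x = χ j x := by rw [hij]
      exact ((Ideal.Quotient.mk m.asIdeal).comp (algebraMap M A)).injective h3
    exact Fin.ext (pow_injOn_Iio_orderOf (Set.mem_Iio.mpr i.2) (Set.mem_Iio.mpr j.2) h2)
  have hli := (linearIndependent_monoidHom M (A ⧸ m.asIdeal)).comp χ hχ
  rw [Fintype.linearIndependent_iff] at hli
  have h4 := hli (fun i => Ideal.Quotient.mk m.asIdeal (c i)) (by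
    funext θ
    have h5 := h1 θ
    rw [hf, ← Ideal.Quotient.eq_zero_iff_mem, map_sum, sum_range] at h5
    rw [Finset.sum_apply, Pi.zero_apply, ← h5]
    refine sum_congr rfl fun i _ => ?_
    rw [map_mul]
    rfl) ⟨0, hρ⟩
  have h6 : c 0 = 1 := by simp [hc]
  change Ideal.Quotient.mk m.asIdeal (c 0) = 0 at h4
  rw [h6, map_one] at h4
  exact one_ne_zero h4

/-- Hilbert 90 over a semilocal ring `A` containing the field `M`. -/
theorem h90_ring [Finite (MaximalSpectrum A)] (ρ : M ≃ₐ[K] M) (hρ : 0 < orderOf ρ)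
    (s : A →+* A) (hs : ∀ m : M, s (algebraMap M A m) = algebraMap M A (ρ m)) (a : Aˣ)
    (ha : pr (Units.map (s : A →* A)) (orderOf ρ) a = 1) :
    ∃ z : Aˣ, a = Units.map (s : A →* A) z / z := by
  set d := orderOf ρ with hd
  obtain ⟨θ, b, hb⟩ := exists_unit_sum (A := A) ρ hρ s (a : A)
  have hit : ∀ i, ((Units.map (s : A →* A))^[i] a : Aˣ) = ((s^[i] (a : A)) : A) := by
    intro i
    induction i with
    | zero => rfl
    | succ i ih =>
      rw [Function.iterate_succ_apply', Function.iterate_succ_apply', ← ih]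
      rfl
  have ha' : ∏ j ∈ range d, s^[j] (a : A) = 1 := by
    have h1 := congrArg Units.val ha
    rw [pr, Units.coe_prod, Units.val_one] at h1
    rw [← h1]
    exact prod_congr rfl fun i _ => (hit i).symm
  have hsρ : ∀ i (m : M), s (algebraMap M A ((ρ ^ i) m)) = algebraMap M A ((ρ ^ (i + 1)) m) := by
    intro i m
    rw [hs, pow_succ' ρ i]
    rfl
  have hkey : (a : A) * s b = b := by
    rw [hb, map_sum, mul_sum]
    have e1 : ∀ i ∈ range d, (a : A) * s ((∏ j ∈ range i, s^[j] (a : A)) *
        algebraMap M A ((ρ ^ i) θ)) = (∏ j ∈ range (i + 1), s^[j] (a : A)) *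
        algebraMap M A ((ρ ^ (i + 1)) θ) := by
      intro i _
      rw [map_mul, hsρ, prod_range_succ', map_prod, ← mul_assoc, Function.iterate_zero, id,
        mul_comm (a : A)]
      congr 2
      exact prod_congr rfl fun j _ => (Function.iterate_succ_apply' _ _ _).symm
    rw [sum_congr rfl e1]
    have h2 := sum_range_succ' (fun i => (∏ j ∈ range i, s^[j] (a : A)) *
      algebraMap M A ((ρ ^ i) θ)) d
    rw [sum_range_succ, ha', show ρ ^ d = 1 from pow_orderOf_eq_one ρ] at h2
    simpa using h2.symm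
  refine ⟨b⁻¹, ?_⟩
  rw [map_inv, div_eq_mul_inv, inv_inv, eq_comm, inv_mul_eq_iff_eq_mul]
  ext
  rw [Units.val_mul, mul_comm]
  exact hkey.symm

end h90

/-! ### The letters `R ⊗[K] M` -/

section tens

variable {K M : Type*} (R : Type*) [Field K] [Field M] [Algebra K M] [CommRing R] [Algebra K R]

/-- The action of an automorphism of `M` on `R ⊗[K] M`. -/
noncomputable def act (g : M ≃ₐ[K] M) : R ⊗[K] M ≃ₐ[R] R ⊗[K] M :=
  Algebra.TensorProduct.congr AlgEquiv.refl g

@[simp] theorem act_tmul (g : M ≃ₐ[K] M) (r : R) (m : M) : act R g (r ⊗ₜ[K] m) = r ⊗ₜ g m := rfl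

@[simp] theorem act_one (x : R ⊗[K] M) : act R (1 : M ≃ₐ[K] M) x = x := by
  induction x with
  | zero => simp
  | tmul r m => rfl
  | add x y hx hy => rw [map_add, hx, hy]

theorem act_mul (g h : M ≃ₐ[K] M) (x : R ⊗[K] M) : act R (g * h) x = act R g (act R h x) := by
  induction x with
  | zero => simp
  | tmul r m => rfl
  | add x y hx hy => simp only [map_add, hx, hy]

theorem act_iter (g : M ≃ₐ[K] M) (i : ℕ) (x : R ⊗[K] M) :
    (act R g)^[i] x = act R (g ^ i) x := by
  induction i with
  | zero => simp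
  | succ i ih => rw [Function.iterate_succ_apply', ih, pow_succ', act_mul]

/-- The action on the units. -/
noncomputable def actU (g : M ≃ₐ[K] M) : (R ⊗[K] M)ˣ →* (R ⊗[K] M)ˣ :=
  Units.map (act R g : (R ⊗[K] M) →* (R ⊗[K] M))

@[simp] theorem val_actU (g : M ≃ₐ[K] M) (x : (R ⊗[K] M)ˣ) : (actU R g x).1 = act R g x.1 := rfl

theorem actU_mul (g h : M ≃ₐ[K] M) (x : (R ⊗[K] M)ˣ) :
    actU R (g * h) x = actU R g (actU R h x) := Units.ext (act_mul R g h x.1)

theorem actU_one (x : (R ⊗[K] M)ˣ) : actU R (1 : M ≃ₐ[K] M) x = x := Units.ext (act_one R x.1)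

theorem actU_iter (g : M ≃ₐ[K] M) (i : ℕ) (x : (R ⊗[K] M)ˣ) :
    (actU R g)^[i] x = actU R (g ^ i) x := by
  induction i with
  | zero => rw [pow_zero, actU_one]; rfl
  | succ i ih => rw [Function.iterate_succ_apply', ih, pow_succ', actU_mul]

instance instArt [FiniteDimensional K M] [IsArtinianRing R] : IsArtinianRing (R ⊗[K] M) :=
  IsArtinianRing.of_finite R _

/-- Hilbert 90 in `R ⊗[K] M`. -/
theorem h90_tens [Infinite K] [FiniteDimensional K M] [IsArtinianRing R] (ρ : M ≃ₐ[K] M)
    (a : (R ⊗[K] M)ˣ) (ha : pr (actU R ρ) (orderOf ρ) a = 1) :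
    ∃ z : (R ⊗[K] M)ˣ, a = actU R ρ z / z := by
  let : Algebra M (R ⊗[K] M) := Algebra.TensorProduct.rightAlgebra
  have hρ : 0 < orderOf ρ := orderOf_pos ρ
  exact h90_ring ρ hρ ((act R ρ : R ⊗[K] M ≃ₐ[R] R ⊗[K] M) : (R ⊗[K] M) →+* (R ⊗[K] M))
    (fun m => by
      change act R ρ (1 ⊗ₜ m) = 1 ⊗ₜ (ρ m)
      rfl) a ha

/-- Hilbert 90 in the field `M`. -/
theorem h90_field (K : Type*) [Field K] {M : Type*} [Field M] [Algebra K M] [Infinite K]
    [FiniteDimensional K M] (ρ : M ≃ₐ[K] M)
    (a : Mˣ) (ha : pr (Units.map (ρ : M →* M)) (orderOf ρ) a = 1) :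
    ∃ z : Mˣ, a = Units.map (ρ : M →* M) z / z := by
  have hρ : 0 < orderOf ρ := orderOf_pos ρ
  exact h90_ring ρ hρ ((ρ : M ≃ₐ[K] M) : M →+* M) (fun m => rfl) a ha

/-- The elements fixed by `ρ` come from `R ⊗[K] E`, `E` the fixed field of `ρ`. -/
theorem fix_iff (E : IntermediateField K M) (ρ : M ≃ₐ[K] M) (hE : ∀ m, m ∈ E ↔ ρ m = m)
    (x : R ⊗[K] M) : act R ρ x = x ↔
      ∃ y : R ⊗[K] E, Algebra.TensorProduct.map (AlgHom.id R R) E.val y = x := by
  have e1 : ∀ x : R ⊗[K] M, AlgebraTensorModule.lTensor R R ρ.toLinearMap x = act R ρ x := by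
    intro x
    induction x with
    | zero => simp
    | tmul r m => rfl
    | add x y hx hy => rw [map_add, map_add, hx, hy]
  have e2 : ∀ x : R ⊗[K] M,
      AlgebraTensorModule.lTensor R R (LinearMap.id : M →ₗ[K] M) x = x := by
    intro x
    induction x with
    | zero => simp
    | tmul r m => rfl
    | add x y hx hy => rw [map_add, hx, hy]
  constructor
  · intro hx
    have h1 : x ∈ LinearMap.eqLocus (AlgebraTensorModule.lTensor R R ρ.toLinearMap)
        (AlgebraTensorModule.lTensor R R (LinearMap.id : M →ₗ[K] M)) := by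
      rw [LinearMap.mem_eqLocus, e1, e2, hx]
    rw [Module.Flat.eqLocus_lTensor_eq] at h1
    obtain ⟨y, hy⟩ := h1
    let j : LinearMap.eqLocus ρ.toLinearMap (LinearMap.id : M →ₗ[K] M) →ₗ[K] E :=
      { toFun := fun m => ⟨m.1, (hE _).mpr m.2⟩
        map_add' := fun _ _ => rfl
        map_smul' := fun _ _ => rfl }
    refine ⟨AlgebraTensorModule.lTensor R R j y, ?_⟩
    rw [← hy]
    clear hy
    induction y with
    | zero => simp
    | tmul r m => rfl
    | add x y hx hy => rw [map_add, map_add, map_add, hx, hy]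
  · rintro ⟨y, rfl⟩
    induction y with
    | zero => simp
    | tmul r m =>
      rw [Algebra.TensorProduct.map_tmul, act_tmul]
      congr 1
      exact (hE _).mp m.2
    | add x y hx hy => simp only [map_add, hx, hy]

end tens

end Vale.Agent.P022.H17
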