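import Vale.Agent.P022.H567.Cft
import Vale.Agent.P022.H17.H90

/-!
P022, Artin reciprocity: the crossing of the norms.
-/

open NumberField TensorProduct Finset

noncomputable section

namespace Vale.Agent.P022.H17

open Vale.Agent.P022.C

/-! ### Fixed elements of `R ⊗ M`, second form -/

section fix

variable {K F M : Type*} (R : Type*) [Field K] [Field F] [Field M] [Algebra K F] [Algebra K M]
  [CommRing R] [Algebra K R]

theorem inj_map (ι : F →ₐ[K] M) :
    Function.Injective (Algebra.TensorProduct.map (AlgHom.id R R) ι) := by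
  have h := Module.Flat.lTensor_preserves_injective_linearMap (R := K) (M := R) ι.toLinearMap
    ι.injective
  intro x y hxy
  apply h
  have e : ∀ x : R ⊗[K] F, LinearMap.lTensor R ι.toLinearMap x =
      Algebra.TensorProduct.map (AlgHom.id R R) ι x := by
    intro x
    induction x with
    | zero => simp
    | tmul r m => rfl
    | add x y hx hy => rw [map_add, map_add, hx, hy]
  rw [e, e, hxy]

theorem fix_iff' (ι : F →ₐ[K] M) (ρ : M ≃ₐ[K] M) (hE : ∀ m, ρ m = m ↔ ∃ x, ι x = m)
    (x : R ⊗[K] M) : act R ρ x = x ↔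
      ∃ y : R ⊗[K] F, Algebra.TensorProduct.map (AlgHom.id R R) ι y = x := by
  rw [fix_iff R ι.fieldRange ρ (fun m => by rw [hE]; rfl)]
  let e : F ≃ₐ[K] ι.fieldRange := AlgEquiv.ofBijective ι.rangeRestrict
    ⟨fun a b h => ι.injective (congrArg Subtype.val h), ι.rangeRestrict_surjective⟩
  have he : ∀ x, ((e x : ι.fieldRange) : M) = ι x := fun x => rfl
  constructor
  · rintro ⟨y, rfl⟩
    refine ⟨Algebra.TensorProduct.map (AlgHom.id R R) (e.symm : ι.fieldRange →ₐ[K] F) y, ?_⟩
    induction y with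
    | zero => simp
    | tmul r m =>
      rw [Algebra.TensorProduct.map_tmul, Algebra.TensorProduct.map_tmul,
        Algebra.TensorProduct.map_tmul]
      congr 1
      have := he (e.symm m)
      rw [e.apply_symm_apply] at this
      exact this.symm
    | add x y hx hy => simp only [map_add, hx, hy]
  · rintro ⟨y, rfl⟩
    refine ⟨Algebra.TensorProduct.map (AlgHom.id R R) (e : F →ₐ[K] ι.fieldRange) y, ?_⟩
    induction y with
    | zero => simp
    | tmul r m => rfl
    | add x y hx hy => simp only [map_add, hx, hy]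

/-- Equivariance of the maps of tensor products. -/
theorem map_act (ι : F →ₐ[K] M) (σ : F ≃ₐ[K] F) (s : M ≃ₐ[K] M)
    (h : ∀ x, s (ι x) = ι (σ x)) (y : R ⊗[K] F) :
    act R s (Algebra.TensorProduct.map (AlgHom.id R R) ι y) =
      Algebra.TensorProduct.map (AlgHom.id R R) ι (act R σ y) := by
  induction y with
  | zero => simp
  | tmul r m =>
    rw [act_tmul, Algebra.TensorProduct.map_tmul, Algebra.TensorProduct.map_tmul, act_tmul, h]
  | add x y hx hy => simp only [map_add, hx, hy]

end fix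

/-! ### The group of the compositum -/

section cross

variable {K L L' E : Type} [Field K] [Field L] [Field L'] [Field E]
    [Algebra K L] [Algebra K L'] [Algebra K E] [Algebra L E] [Algebra L' E]
    [IsScalarTower K L E] [IsScalarTower K L' E] {n n' : ℕ} {σ : L ≃ₐ[K] L}
    {σ' : L' ≃ₐ[K] L'} {s s' : E ≃ₐ[K] E}

theorem symm (h : Cross K n n' σ σ' s s') : Cross K n' n σ' σ s' s where
  cyc := h.cyc'
  cyc' := h.cyc
  rank := by rw [h.rank, mul_comm]
  sL := h.s'L'
  sL' := h.s'L
  s'L := h.sL'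
  s'L' := h.sL
  ext := fun t h1 h2 => h.ext t h2 h1

theorem pow_L (h : Cross K n n' σ σ' s s') (i : ℕ) (x : L) :
    (s ^ i) (algebraMap L E x) = algebraMap L E ((σ ^ i) x) := by
  induction i with
  | zero => rfl
  | succ i ih => rw [pow_succ', pow_succ', AlgEquiv.mul_apply, AlgEquiv.mul_apply, ih, h.sL]

theorem pow_L' (h : Cross K n n' σ σ' s s') (i : ℕ) (x : L') :
    (s ^ i) (algebraMap L' E x) = algebraMap L' E x := by
  induction i with
  | zero => rfl
  | succ i ih => rw [pow_succ', AlgEquiv.mul_apply, ih, h.sL']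

theorem ext2 (h : Cross K n n' σ σ' s s') {t u : E ≃ₐ[K] E}
    (h1 : ∀ x : L, t (algebraMap L E x) = u (algebraMap L E x))
    (h2 : ∀ x : L', t (algebraMap L' E x) = u (algebraMap L' E x)) : t = u := by
  have h3 : u⁻¹ * t = 1 := by
    apply h.ext
    · intro x
      rw [AlgEquiv.mul_apply, h1]
      exact u.symm_apply_apply _
    · intro x
      rw [AlgEquiv.mul_apply, h2]
      exact u.symm_apply_apply _
  rwa [inv_mul_eq_one, eq_comm] at h3

theorem comm (h : Cross K n n' σ σ' s s') : s * s' = s' * s := by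
  apply ext2 h
  · intro x
    rw [AlgEquiv.mul_apply, AlgEquiv.mul_apply, h.s'L, h.sL, h.s'L]
  · intro x
    rw [AlgEquiv.mul_apply, AlgEquiv.mul_apply, h.s'L', h.sL', h.sL', h.s'L']

theorem order (h : Cross K n n' σ σ' s s') : orderOf s = n := by
  apply Nat.dvd_antisymm
  · apply orderOf_dvd_of_pow_eq_one
    apply h.ext
    · intro x
      rw [pow_L h, ← h.cyc.ord, pow_orderOf_eq_one]
      rfl
    · intro x
      rw [pow_L' h]
  · rw [← h.cyc.ord]
    apply orderOf_dvd_of_pow_eq_one
    ext x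
    apply (algebraMap L E).injective
    rw [← pow_L h, pow_orderOf_eq_one]
    rfl

theorem order' (h : Cross K n n' σ σ' s s') : orderOf s' = n' := order (symm h)

/-- The group has the right order. -/
theorem galois (h : Cross K n n' σ σ' s s') : IsGalois K E ∧
    ∀ g : E ≃ₐ[K] E, ∃ i j : ℕ, g = s ^ i * s' ^ j := by
  classical
  have hpos : 0 < Module.finrank K E := by
    rw [h.rank]; exact Nat.mul_pos h.cyc.pos h.cyc'.pos
  have : FiniteDimensional K E := Module.finite_of_finrank_pos hpos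
  let f : Fin n × Fin n' → (E ≃ₐ[K] E) := fun p => s ^ (p.1 : ℕ) * s' ^ (p.2 : ℕ)
  have hf : Function.Injective f := by
    rintro ⟨i, j⟩ ⟨i', j'⟩ hij
    have h1 : σ ^ (i : ℕ) = σ ^ (i' : ℕ) := by
      ext x
      apply (algebraMap L E).injective
      have h2 := congrArg (fun g : E ≃ₐ[K] E => g (algebraMap L E x)) hij
      simp only [f, AlgEquiv.mul_apply] at h2
      rwa [pow_L' (symm h), pow_L' (symm h), pow_L h, pow_L h] at h2
    have h1' : σ' ^ (j : ℕ) = σ' ^ (j' : ℕ) := by
      ext x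
      apply (algebraMap L' E).injective
      have h2 := congrArg (fun g : E ≃ₐ[K] E => g (algebraMap L' E x)) hij
      simp only [f, AlgEquiv.mul_apply] at h2
      rwa [pow_L (symm h), pow_L (symm h), pow_L' h, pow_L' h] at h2
    have h3 : (i : ℕ) = i' := pow_injOn_Iio_orderOf
      (by rw [Set.mem_Iio, h.cyc.ord]; exact i.2) (by rw [Set.mem_Iio, h.cyc.ord]; exact i'.2) h1
    have h4 : (j : ℕ) = j' := pow_injOn_Iio_orderOf
      (by rw [Set.mem_Iio, h.cyc'.ord]; exact j.2)
      (by rw [Set.mem_Iio, h.cyc'.ord]; exact j'.2) h1'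
    rw [Fin.ext h3, Fin.ext h4]
  have hcard : Fintype.card (E ≃ₐ[K] E) ≤ n * n' := by
    rw [← h.rank]; exact AlgEquiv.card_le
  have hcard' : n * n' ≤ Fintype.card (E ≃ₐ[K] E) := by
    have := Fintype.card_le_of_injective f hf
    simpa using this
  have hc : Fintype.card (E ≃ₐ[K] E) = n * n' := le_antisymm hcard hcard'
  refine ⟨IsGalois.of_card_aut_eq_finrank K E (by
    rw [Nat.card_eq_fintype_card, hc, h.rank]), ?_⟩
  have hb : Function.Bijective f := by
    rw [Fintype.bijective_iff_injective_and_card]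
    exact ⟨hf, by simp [hc]⟩
  intro g
  obtain ⟨⟨i, j⟩, hij⟩ := hb.2 g
  exact ⟨i, j, hij.symm⟩

/-- An element fixed by `s` and `s'` is in `K`. -/
theorem mem_K (h : Cross K n n' σ σ' s s') {x : E} (h1 : s x = x) (h2 : s' x = x) :
    ∃ b : K, algebraMap K E b = x := by
  obtain ⟨hg, hall⟩ := galois h
  have hpos : 0 < Module.finrank K E := by
    rw [h.rank]; exact Nat.mul_pos h.cyc.pos h.cyc'.pos
  have : FiniteDimensional K E := Module.finite_of_finrank_pos hpos
  have hi : ∀ (t : E ≃ₐ[K] E), t x = x → ∀ i : ℕ, (t ^ i) x = x := by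
    intro t ht i
    induction i with
    | zero => rfl
    | succ i ih => rw [pow_succ', AlgEquiv.mul_apply, ih, ht]
  have h3 : x ∈ (⊥ : IntermediateField K E) := by
    rw [IsGalois.mem_bot_iff_fixed]
    intro g
    obtain ⟨i, j, rfl⟩ := hall g
    rw [AlgEquiv.mul_apply, hi s' h2, hi s h1]
  exact IntermediateField.mem_bot.mp h3

/-- An element fixed by `s` is in `L'`. -/
theorem mem_L' (h : Cross K n n' σ σ' s s') {x : E} (h1 : s x = x) :
    ∃ b : L', algebraMap L' E b = x := by
  obtain ⟨hg, hall⟩ := galois h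
  have hpos : 0 < Module.finrank K E := by
    rw [h.rank]; exact Nat.mul_pos h.cyc.pos h.cyc'.pos
  have : FiniteDimensional K E := Module.finite_of_finrank_pos hpos
  let F := IntermediateField.fixedField (Subgroup.zpowers s)
  let ι : L' →ₐ[K] E := IsScalarTower.toAlgHom K L' E
  have hle : ι.fieldRange ≤ F := by
    rintro _ ⟨y, rfl⟩
    rw [IntermediateField.mem_fixedField_iff]
    intro g hg
    obtain ⟨i, hi⟩ := (mem_powers_iff_mem_zpowers.mpr hg)
    rw [← hi]
    exact pow_L' h i y
  have hrF : Module.finrank F E = n := by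
    rw [IntermediateField.finrank_fixedField_eq_card, Nat.card_zpowers, order h]
  have hK : Module.finrank K F * Module.finrank F E = Module.finrank K E :=
    Module.finrank_mul_finrank K F E
  have hK2 : Module.finrank K F = n' := by
    rw [hrF, h.rank, mul_comm] at hK
    exact Nat.eq_of_mul_eq_mul_left h.cyc.pos hK
  have hK3 : Module.finrank K ι.fieldRange = n' := by
    rw [← h.cyc'.rank]
    exact (AlgEquiv.ofInjectiveField ι).toLinearEquiv.finrank_eq.symm
  have heq : ι.fieldRange = F := IntermediateField.eq_of_le_of_finrank_eq hle (by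
    rw [hK2, hK3])
  have hx : x ∈ F := by
    rw [IntermediateField.mem_fixedField_iff]
    intro g hg
    obtain ⟨i, hi⟩ := (mem_powers_iff_mem_zpowers.mpr hg)
    rw [← hi]
    clear hi hg
    induction i with
    | zero => rfl
    | succ i ih =>
      change (s ^ (i + 1)) x = x
      rw [pow_succ', AlgEquiv.mul_apply]
      have : (s ^ i) x = x := ih
      rw [this, h1]
  rw [← heq] at hx
  exact hx

end cross

/-! ### The local comparison -/

section loc

variable {K M : Type*} (R : Type*) [Field K] [Field M] [Algebra K M] [CommRing R] [Algebra K R]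

/-- A unit of `M` as a unit of `R ⊗ M`. -/
def incU : Mˣ →* (R ⊗[K] M)ˣ :=
  Units.map ((Algebra.TensorProduct.includeRight : M →ₐ[K] R ⊗[K] M) : M →* R ⊗[K] M)

theorem act_incl (g : M ≃ₐ[K] M) (x : M) :
    act R g ((Algebra.TensorProduct.includeRight : M →ₐ[K] R ⊗[K] M) x) =
      (Algebra.TensorProduct.includeRight : M →ₐ[K] R ⊗[K] M) (g x) := rfl

theorem pr_val (g : M ≃ₐ[K] M) (n : ℕ) (x : (R ⊗[K] M)ˣ) :
    (pr (actU R g) n x).1 = ∏ i ∈ range n, act R (g ^ i) x.1 := by
  rw [pr, Units.coe_prod]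
  exact prod_congr rfl fun i _ => by rw [actU_iter]; rfl

theorem prod_incl (g : M ≃ₐ[K] M) (n : ℕ) (x : M) (a : K)
    (h : ∏ i ∈ range n, (g ^ i) x = algebraMap K M a) :
    ∏ i ∈ range n, act R (g ^ i)
      ((Algebra.TensorProduct.includeRight : M →ₐ[K] R ⊗[K] M) x) =
        algebraMap K (R ⊗[K] M) a := by
  simp only [act_incl]
  rw [← map_prod, h, AlgHom.commutes]

/-- A factor of a unit is a unit. -/
theorem isUnit_of_prod (g : M ≃ₐ[K] M) {n : ℕ} (hn : 0 < n) {x : R ⊗[K] M} {a : K} (ha : a ≠ 0)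
    (h : ∏ i ∈ range n, act R (g ^ i) x = algebraMap K (R ⊗[K] M) a) : IsUnit x := by
  have h1 : x ∣ ∏ i ∈ range n, act R (g ^ i) x := by
    have := dvd_prod_of_mem (fun i => act R (g ^ i) x) (mem_range.mpr hn)
    simpa using this
  rw [h] at h1
  exact isUnit_of_dvd_unit h1 ((isUnit_iff_ne_zero.mpr ha).map (algebraMap K (R ⊗[K] M)))

end loc

section crs

variable {K L L' E : Type} [Field K] [Field L] [Field L'] [Field E]
    [Algebra K L] [Algebra K L'] [Algebra K E] [Algebra L E] [Algebra L' E]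
    [IsScalarTower K L E] [IsScalarTower K L' E] {n n' : ℕ} {σ : L ≃ₐ[K] L}
    {σ' : L' ≃ₐ[K] L'} {s s' : E ≃ₐ[K] E}

theorem local_half [Infinite K] (h : Cross K n n' σ σ' s s') {a b : K} (ha : a ≠ 0)
    {γ δ : Eˣ} (hγδ : s' γ * δ = γ * s δ)
    (hγ : ∏ i ∈ range n, (s ^ i) (γ : E) = algebraMap K E a)
    (hδ : ∏ i ∈ range n', (s' ^ i) (δ : E) = algebraMap K E b)
    (R : Type) [Field R] [Algebra K R] (hn : Nm σ n R a) : Nm σ' n' R b := by
  obtain ⟨y, hy⟩ := hn
  have hpos : 0 < Module.finrank K E := by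
    rw [h.rank]; exact Nat.mul_pos h.cyc.pos h.cyc'.pos
  have : FiniteDimensional K E := Module.finite_of_finrank_pos hpos
  let ιL : L →ₐ[K] E := IsScalarTower.toAlgHom K L E
  let ιL' : L' →ₐ[K] E := IsScalarTower.toAlgHom K L' E
  set Λ : R ⊗[K] E := Algebra.TensorProduct.map (AlgHom.id R R) ιL y with hΛ
  have hΛN : ∏ i ∈ range n, act R (s ^ i) Λ = algebraMap K (R ⊗[K] E) a := by
    have h1 := congrArg (Algebra.TensorProduct.map (AlgHom.id R R) ιL) hy
    rw [map_prod] at h1
    have h2 : Algebra.TensorProduct.map (AlgHom.id R R) ιL (algebraMap K (R ⊗[K] L) a) =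
        algebraMap K (R ⊗[K] E) a := by
      rw [IsScalarTower.algebraMap_apply K R (R ⊗[K] L), AlgHom.commutes,
        ← IsScalarTower.algebraMap_apply]
    rw [h2] at h1
    rw [← h1]
    exact prod_congr rfl fun i _ => map_act R ιL (σ ^ i) (s ^ i) (fun x => pow_L h i x) y
  obtain ⟨u, hu⟩ := isUnit_of_prod R s h.cyc.pos ha hΛN
  have hTu : actU R s' u = u := by
    ext
    rw [val_actU, hu, hΛ]
    refine (map_act R ιL 1 s' (fun x => h.s'L x) y).trans ?_
    rw [act_one]
  -- the equality of the norms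
  have hN1 : pr (actU R s) n u = pr (actU R s) n (incU R γ) := by
    ext
    rw [pr_val, pr_val, hu, hΛN]
    exact (prod_incl R s n (γ : E) a hγ).symm
  have hz : actU R s' (incU R γ) / incU R γ = actU R s (incU R δ) / incU R δ := by
    rw [div_eq_div_iff_mul_eq_mul]
    ext
    have h3 := congrArg (Algebra.TensorProduct.includeRight : E →ₐ[K] R ⊗[K] E) hγδ
    rw [map_mul, map_mul] at h3
    rw [mul_comm (actU R s _)]
    exact h3
  have hcomm : ∀ x, actU R s (actU R s' x) = actU R s' (actU R s x) := fun x => by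
    rw [← actU_mul, ← actU_mul, comm h]
  have hTN : ∀ x, (actU R s')^[n'] x = x := fun x => by
    rw [actU_iter, ← order' h, pow_orderOf_eq_one, actU_one]
  obtain ⟨c, hc, hcN⟩ := cross_local (actU R s) (actU R s') n n' hcomm hTN
    (fun y hy => h90_tens R s y (by rw [order h]; exact hy))
    (y := incU R γ) (z := incU R δ) (yL := u) rfl hz hTu hN1
  obtain ⟨y', hy'⟩ := (fix_iff' R ιL' s (fun m => ⟨fun hm => mem_L' h hm, by
    rintro ⟨x, rfl⟩; exact h.sL' x⟩) c.1).mp (congrArg Units.val hc)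
  refine ⟨y', ?_⟩
  apply inj_map R ιL'
  have h2 : Algebra.TensorProduct.map (AlgHom.id R R) ιL' (algebraMap K (R ⊗[K] L') b) =
      algebraMap K (R ⊗[K] E) b := by
    rw [IsScalarTower.algebraMap_apply K R (R ⊗[K] L'), AlgHom.commutes,
      ← IsScalarTower.algebraMap_apply]
  rw [h2, map_prod, ← prod_incl R s' n' (δ : E) b hδ]
  have h4 := congrArg Units.val hcN
  rw [pr_val, pr_val] at h4
  refine Eq.trans ?_ h4
  refine prod_congr rfl fun i _ => ?_
  rw [← hy']
  exact (map_act R ιL' (σ' ^ i) (s' ^ i) (fun x => pow_L (symm h) i x) y').symm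

end crs

/-- [CRS] -/
theorem CRS : CRSStmt := by
  intro K L L' E _ _ _ _ _ _ _ _ _ _ _ _ _ _ _ n n' σ σ' s s' h a ha γ hγ
  have hpos : 0 < Module.finrank K E := by
    rw [h.rank]; exact Nat.mul_pos h.cyc.pos h.cyc'.pos
  have : FiniteDimensional K E := Module.finite_of_finrank_pos hpos
  have hγ0 : γ ≠ 0 := by
    rintro rfl
    rw [prod_congr rfl (fun i _ => map_zero (s ^ i)), prod_const, card_range,
      zero_pow h.cyc.pos.ne'] at hγ
    exact ha ((map_eq_zero (algebraMap K E)).mp hγ.symm)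
  let S : Eˣ →* Eˣ := Units.map (s : E →* E)
  let T : Eˣ →* Eˣ := Units.map (s' : E →* E)
  have hSi : ∀ (i : ℕ) (x : Eˣ), (S^[i] x).1 = (s ^ i) x.1 := by
    intro i x
    induction i with
    | zero => rfl
    | succ i ih =>
      rw [Function.iterate_succ_apply', pow_succ', AlgEquiv.mul_apply, ← ih]
      rfl
  have hTi : ∀ (i : ℕ) (x : Eˣ), (T^[i] x).1 = (s' ^ i) x.1 := by
    intro i x
    induction i with
    | zero => rfl
    | succ i ih =>
      rw [Function.iterate_succ_apply', pow_succ', AlgEquiv.mul_apply, ← ih]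
      rfl
  have hST : ∀ x, S (T x) = T (S x) := fun x => Units.ext (by
    have := congrArg (fun g : E ≃ₐ[K] E => g x.1) (comm h)
    exact this)
  have hTN : ∀ x, T^[n'] x = x := fun x => Units.ext (by
    rw [hTi, ← order' h, pow_orderOf_eq_one]; rfl)
  let γ' : Eˣ := Units.mk0 γ hγ0
  let α : Eˣ := Units.mk0 (algebraMap K E a) ((map_ne_zero _).mpr ha)
  have hα : T α = α := Units.ext (by
    change s' (algebraMap K E a) = algebraMap K E a
    exact s'.commutes a)
  have hy : pr S n γ' = α := by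
    ext
    rw [pr, Units.coe_prod]
    rw [prod_congr rfl (fun i _ => hSi i γ')]
    exact hγ
  obtain ⟨z, hz, hz1, hz2⟩ := cross S T n n' hST hTN
    (fun y hy => h90_field K s y (by rw [order h]; exact hy)) hα hy
  obtain ⟨b, hb⟩ := mem_K h (x := (pr T n' z).1) (congrArg Units.val hz1) (congrArg Units.val hz2)
  have hδ : ∏ i ∈ range n', (s' ^ i) (z : E) = algebraMap K E b := by
    rw [hb, pr, Units.coe_prod]
    exact (prod_congr rfl (fun i _ => hTi i z)).symm
  have hb0 : b ≠ 0 := by
    rintro rfl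
    rw [map_zero] at hb
    exact (pr T n' z).ne_zero hb.symm
  have hrel : s' γ * (z : E) = γ * s (z : E) := by
    rw [div_eq_div_iff_mul_eq_mul] at hz
    have := congrArg Units.val hz
    rw [mul_comm γ]
    exact this
  refine ⟨z, b, z.ne_zero, hb0, hrel, hδ, fun R _ _ _ => ⟨fun hR => ?_, fun hR => ?_⟩⟩
  · exact local_half h (γ := γ') (δ := z) ha hrel hγ hδ R hR
  · refine local_half (symm h) (γ := z) (δ := γ') hb0 ?_ hδ hγ R hR
    rw [mul_comm (s _), mul_comm (z : E)]
    exact hrel.symm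

end Vale.Agent.P022.H17
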