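import Vale.Agent.P022.H17.CRS
import Vale.Agent.P011.W.Compl

/-!
P022, Artin reciprocity: the Hasse norm theorem for cyclic extensions from prime degree.
-/

open NumberField IsDedekindDomain TensorProduct Finset

noncomputable section

namespace Vale.Agent.P022.H17

open Vale.Agent.P022.C

/-! ### Cyclic extensions -/

section cyc

variable {K L : Type} [Field K] [Field L] [Algebra K L] {n : ℕ} {σ : L ≃ₐ[K] L}

theorem cyc_fin (h : Cyc K n σ) : FiniteDimensional K L :=
  Module.finite_of_finrank_pos (by rw [h.rank]; exact h.pos)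

theorem cyc_galois (h : Cyc K n σ) : IsGalois K L ∧ ∀ g : L ≃ₐ[K] L, ∃ i : ℕ, g = σ ^ i := by
  classical
  have := cyc_fin h
  let f : Fin n → (L ≃ₐ[K] L) := fun i => σ ^ (i : ℕ)
  have hf : Function.Injective f := by
    intro i j hij
    exact Fin.ext (pow_injOn_Iio_orderOf (by rw [Set.mem_Iio, h.ord]; exact i.2)
      (by rw [Set.mem_Iio, h.ord]; exact j.2) hij)
  have hcard : Fintype.card (L ≃ₐ[K] L) ≤ n := by
    rw [← h.rank]; exact AlgEquiv.card_le
  have hcard' : n ≤ Fintype.card (L ≃ₐ[K] L) := by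
    have := Fintype.card_le_of_injective f hf
    simpa using this
  have hc : Fintype.card (L ≃ₐ[K] L) = n := le_antisymm hcard hcard'
  refine ⟨IsGalois.of_card_aut_eq_finrank K L (by
    rw [Nat.card_eq_fintype_card, hc, h.rank]), ?_⟩
  have hb : Function.Bijective f := by
    rw [Fintype.bijective_iff_injective_and_card]
    exact ⟨hf, by simp [hc]⟩
  intro g
  obtain ⟨i, hi⟩ := hb.2 g
  exact ⟨i, hi.symm⟩

theorem pow_fix (t : L ≃ₐ[K] L) {x : L} (ht : t x = x) (i : ℕ) : (t ^ i) x = x := by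
  induction i with
  | zero => rfl
  | succ i ih => rw [pow_succ', AlgEquiv.mul_apply, ih, ht]

/-- The elements fixed by the generator. -/
theorem cyc_fix (h : Cyc K n σ) (x : L) : σ x = x ↔ ∃ b : K, algebraMap K L b = x := by
  constructor
  · intro h1
    obtain ⟨hg, hall⟩ := cyc_galois h
    have := cyc_fin h
    have h3 : x ∈ (⊥ : IntermediateField K L) := by
      rw [IsGalois.mem_bot_iff_fixed]
      intro g
      obtain ⟨i, rfl⟩ := hall g
      exact pow_fix σ h1 i
    exact IntermediateField.mem_bot.mp h3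
  · rintro ⟨b, rfl⟩
    exact σ.commutes b

end cyc

/-! ### A map out of a tensor product -/

theorem exists_lift {K R L T : Type} [Field K] [CommRing R] [CommRing L] [CommRing T]
    [Algebra K R] [Algebra K L] (f₁ : R →+* T) (f₂ : L →+* T)
    (h : ∀ c : K, f₁ (algebraMap K R c) = f₂ (algebraMap K L c)) :
    ∃ F : R ⊗[K] L →+* T, ∀ r x, F (r ⊗ₜ x) = f₁ r * f₂ x := by
  let _ : Algebra K T := (f₁.comp (algebraMap K R)).toAlgebra
  let g₁ : R →ₐ[K] T := { f₁ with commutes' := fun _ => rfl }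
  let g₂ : L →ₐ[K] T := { f₂ with commutes' := fun c => (h c).symm }
  have hc : ∀ x y, Commute (g₁ x) (g₂ y) := fun _ _ => Commute.all _ _
  refine ⟨(Algebra.TensorProduct.lift g₁ g₂ hc : R ⊗[K] L →ₐ[K] T), fun r x => ?_⟩
  exact Algebra.TensorProduct.lift_tmul g₁ g₂ hc r x

/-! ### One step of the tower -/

section step

variable {K M L : Type} [Field K] [Field M] [Field L] [Algebra K M] [Algebra M L]
  [Algebra K L] [IsScalarTower K M L] {m p : ℕ} {σ : L ≃ₐ[K] L} {σM : M ≃ₐ[K] M}
  {τ : L ≃ₐ[M] L}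

/-- The unit of `R ⊗ L` given by a nonzero element of `K`. -/
def cU (R : Type) [Field R] [Algebra K R] (L : Type) [Field L] [Algebra K L] (a : K)
    (ha : a ≠ 0) : (R ⊗[K] L)ˣ :=
  Units.map (algebraMap K (R ⊗[K] L) : K →* (R ⊗[K] L)) (Units.mk0 a ha)

theorem val_cU (R : Type) [Field R] [Algebra K R] (a : K) (ha : a ≠ 0) :
    (cU R L a ha).1 = algebraMap K (R ⊗[K] L) a := rfl

/-- A local norm is the norm of a unit. -/
theorem exists_unit (hσ : 0 < m) (R : Type) [Field R] [Algebra K R] {a : K} (ha : a ≠ 0)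
    (h : Nm σ m R a) : ∃ u : (R ⊗[K] L)ˣ, pr (actU R σ) m u = cU R L a ha := by
  obtain ⟨y, hy⟩ := h
  obtain ⟨u, hu⟩ := isUnit_of_prod R σ hσ ha hy
  refine ⟨u, ?_⟩
  ext
  rw [pr_val, hu, val_cU]
  exact hy

theorem actU_pow_iter (R : Type) [Field R] [Algebra K R] (x : (R ⊗[K] L)ˣ) :
    actU R (σ ^ m) x = (actU R σ)^[m] x := (actU_iter R σ m x).symm

/-- Local norms from `L/K` are local norms from `L/M`. -/
theorem nm_up (hm : 0 < m) (hp : 0 < p) (hτ : ∀ x, τ x = (σ ^ m) x) {a : K} (ha : a ≠ 0)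
    (R R' : Type) [Field R] [Algebra K R] [Field R'] [Algebra M R'] (f : R →+* R')
    (hf : ∀ c : K, f (algebraMap K R c) = algebraMap M R' (algebraMap K M c))
    (h : Nm σ (m * p) R a) : Nm τ p R' (algebraMap K M a) := by
  obtain ⟨u, hu⟩ := exists_unit (Nat.mul_pos hm hp) R ha h
  rw [← pr_pr (actU R σ) (actU R (σ ^ m)) m p (actU_pow_iter R)] at hu
  obtain ⟨F, hF⟩ := exists_lift (K := K) (R := R) (L := L) (T := R' ⊗[M] L)
    ((algebraMap R' (R' ⊗[M] L)).comp f)
    ((Algebra.TensorProduct.includeRight : L →ₐ[M] R' ⊗[M] L) : L →+* R' ⊗[M] L) (fun c => by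
      rw [RingHom.comp_apply, hf, ← IsScalarTower.algebraMap_apply M R' (R' ⊗[M] L),
        RingHom.coe_coe, IsScalarTower.algebraMap_apply K M L]
      exact ((Algebra.TensorProduct.includeRight : L →ₐ[M] R' ⊗[M] L).commutes _).symm)
  have hFt : ∀ (i : ℕ) (y : R ⊗[K] L), F (act R ((σ ^ m) ^ i) y) = act R' (τ ^ i) (F y) := by
    intro i y
    have hτi : ∀ x, (τ ^ i) x = ((σ ^ m) ^ i) x := by
      intro x
      induction i with
      | zero => rfl
      | succ i ih => rw [pow_succ', pow_succ', AlgEquiv.mul_apply, AlgEquiv.mul_apply, ih, hτ]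
    induction y with
    | zero => simp
    | tmul r x =>
      rw [act_tmul, hF, hF, map_mul, RingHom.comp_apply]
      congr 1
      · exact (AlgEquiv.commutes (act R' (τ ^ i)) (f r)).symm
      · rw [RingHom.coe_coe, act_incl, hτi]
    | add x y hx hy => simp only [map_add, hx, hy]
  refine ⟨F (pr (actU R σ) m u).1, ?_⟩
  have h1 := congrArg (fun x : (R ⊗[K] L)ˣ => F x.1) hu
  simp only [pr_val, val_cU] at h1
  rw [map_prod] at h1
  have h2 : F (algebraMap K (R ⊗[K] L) a) = algebraMap M (R' ⊗[M] L) (algebraMap K M a) := by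
    rw [IsScalarTower.algebraMap_apply K R (R ⊗[K] L)]
    change F (algebraMap K R a ⊗ₜ 1) = _
    rw [hF, map_one, mul_one, RingHom.comp_apply, hf,
      ← IsScalarTower.algebraMap_apply M R' (R' ⊗[M] L)]
  rw [← h2, ← h1]
  exact prod_congr rfl fun i _ => by
    rw [pr_val]
    exact (hFt i _).symm

/-- The local norm property of `b`. -/
theorem nm_down [Infinite K] (hσ : Cyc K (m * p) σ) (hm : 0 < m) (hp : 0 < p)
    (hσM : ∀ x, σ (algebraMap M L x) = algebraMap M L (σM x))
    (hfix : ∀ x : L, (σ ^ m) x = x ↔ ∃ b : M, algebraMap M L b = x)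
    {a b : K} (ha : a ≠ 0) (hb : b ≠ 0) {d : L} (hd : d ≠ 0)
    (hab : algebraMap K L a = algebraMap K L b ^ p * ∏ i ∈ range (m * p), (σ ^ i) d)
    (R : Type) [Field R] [Algebra K R] (h : Nm σ (m * p) R a) : Nm σM m R b := by
  have := cyc_fin hσ
  obtain ⟨u, hu⟩ := exists_unit (Nat.mul_pos hm hp) R ha h
  let D : Lˣ := Units.mk0 d hd
  have hN : pr (actU R σ) (m * p) (u / incU R D) = cU R L b hb ^ p := by
    rw [pr_div, hu, div_eq_iff_eq_mul]
    ext
    rw [Units.val_mul, Units.val_pow_eq_pow_val, val_cU, val_cU, pr_val]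
    have h1 := congrArg (Algebra.TensorProduct.includeRight : L →ₐ[K] R ⊗[K] L) hab
    rw [map_mul, map_pow, AlgHom.commutes, AlgHom.commutes, map_prod] at h1
    exact h1
  have hord : orderOf (σ ^ m) = p := by
    rw [orderOf_pow, hσ.ord, Nat.gcd_comm, Nat.gcd_eq_left (Dvd.intro p rfl),
      Nat.mul_div_cancel_left p hm]
  obtain ⟨c, hc, hcN⟩ := descend (actU R σ) (actU R (σ ^ m)) m p (actU_pow_iter R)
    (fun y hy => h90_tens R (σ ^ m) y (by rw [hord]; exact hy))
    (β := cU R L b hb) (y := u / incU R D)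
    (Units.ext (AlgEquiv.commutes ((act R σ).restrictScalars K) b)) hN
  let ι : M →ₐ[K] L := IsScalarTower.toAlgHom K M L
  obtain ⟨y', hy'⟩ := (fix_iff' R ι (σ ^ m) (fun x => (hfix x)) c.1).mp (congrArg Units.val hc)
  refine ⟨y', ?_⟩
  apply inj_map R ι
  have h2 : Algebra.TensorProduct.map (AlgHom.id R R) ι (algebraMap K (R ⊗[K] M) b) =
      algebraMap K (R ⊗[K] L) b := by
    rw [IsScalarTower.algebraMap_apply K R (R ⊗[K] M), AlgHom.commutes,
      ← IsScalarTower.algebraMap_apply]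
  rw [h2, map_prod]
  have h4 := congrArg Units.val hcN
  rw [pr_val, val_cU] at h4
  rw [← h4]
  have hσi : ∀ (i : ℕ) (x : M), (σ ^ i) (ι x) = ι ((σM ^ i) x) := by
    intro i x
    induction i with
    | zero => rfl
    | succ i ih =>
      rw [pow_succ', pow_succ', AlgEquiv.mul_apply, AlgEquiv.mul_apply, ih]
      exact hσM _
  refine prod_congr rfl fun i _ => ?_
  rw [← hy']
  exact (map_act R ι (σM ^ i) (σ ^ i) (hσi i) y').symm

/-- The algebra of the induction step. -/
theorem step_field [Infinite K] (hσ : Cyc K (m * p) σ) (hm : 0 < m)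
    (hτ : ∀ x, τ x = (σ ^ m) x) {a : K} (ha : a ≠ 0) {c : L}
    (hc : ∏ i ∈ range p, (τ ^ i) c = algebraMap M L (algebraMap K M a)) (hp : 0 < p) :
    ∃ (b : K) (d : L), b ≠ 0 ∧ d ≠ 0 ∧
      algebraMap K L a = algebraMap K L b ^ p * ∏ i ∈ range (m * p), (σ ^ i) d := by
  have := cyc_fin hσ
  have hc0 : c ≠ 0 := by
    rintro rfl
    rw [prod_congr rfl (fun i _ => map_zero (τ ^ i)), prod_const, card_range,
      zero_pow hp.ne', ← IsScalarTower.algebraMap_apply] at hc
    exact ha ((map_eq_zero (algebraMap K L)).mp hc.symm)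
  have hord : orderOf (σ ^ m) = p := by
    rw [orderOf_pow, hσ.ord, Nat.gcd_comm, Nat.gcd_eq_left (Dvd.intro p rfl),
      Nat.mul_div_cancel_left p hm]
  have hval : ∀ (g : L ≃ₐ[K] L) (i : ℕ) (x : Lˣ),
      ((Units.map (g : L →* L))^[i] x).1 = (g ^ i) x.1 := by
    intro g i x
    induction i with
    | zero => rfl
    | succ i ih =>
      rw [Function.iterate_succ_apply', pow_succ', AlgEquiv.mul_apply, ← ih]
      rfl
  let S : Lˣ →* Lˣ := Units.map (σ : L →* L)
  let Rm : Lˣ →* Lˣ := Units.map ((σ ^ m : L ≃ₐ[K] L) : L →* L)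
  have hτi : ∀ (i : ℕ) (x : L), (τ ^ i) x = ((σ ^ m) ^ i) x := by
    intro i x
    induction i with
    | zero => rfl
    | succ i ih => rw [pow_succ', pow_succ', AlgEquiv.mul_apply, AlgEquiv.mul_apply, ih, hτ]
  let α : Lˣ := Units.mk0 (algebraMap K L a) ((map_ne_zero _).mpr ha)
  have hu : pr Rm p (Units.mk0 c hc0) = α := by
    ext
    rw [pr, Units.coe_prod, prod_congr rfl (fun i _ => hval (σ ^ m) i _)]
    change _ = algebraMap K L a
    rw [IsScalarTower.algebraMap_apply K M L, ← hc]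
    exact prod_congr rfl fun i _ => (hτi i c).symm
  obtain ⟨β, w, hβ, hw⟩ := ascend S Rm m p (fun x => Units.ext (hval σ m x).symm)
    (fun y hy => h90_field K (σ ^ m) y (by rw [hord]; exact hy))
    (α := α) (Units.ext (σ.commutes a)) hu
  obtain ⟨b, hb⟩ := (cyc_fix hσ β.1).mp (congrArg Units.val hβ)
  refine ⟨b, w, ?_, w.ne_zero, ?_⟩
  · rintro rfl
    rw [map_zero] at hb
    exact β.ne_zero hb.symm
  · have h1 := congrArg Units.val hw
    rw [Units.val_mul, Units.val_pow_eq_pow_val, pr, Units.coe_prod,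
      prod_congr rfl (fun i _ => hval σ i w), ← hb] at h1
    exact h1

theorem nmR_up (hm : 0 < m) (hp : 0 < p) (hτ : ∀ x, τ x = (σ ^ m) x) {a : K} (ha : a ≠ 0)
    (φ : M →+* ℝ) (h : NmR σ (m * p) (φ.comp (algebraMap K M)) a) :
    NmR τ p φ (algebraMap K M a) := by
  let _ : Algebra K ℝ := (φ.comp (algebraMap K M)).toAlgebra
  let _ : Algebra M ℝ := φ.toAlgebra
  exact nm_up hm hp hτ ha ℝ ℝ (RingHom.id ℝ) (fun c => rfl) h

theorem nmR_down [Infinite K] (hσ : Cyc K (m * p) σ) (hm : 0 < m) (hp : 0 < p)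
    (hσM : ∀ x, σ (algebraMap M L x) = algebraMap M L (σM x))
    (hfix : ∀ x : L, (σ ^ m) x = x ↔ ∃ b : M, algebraMap M L b = x)
    {a b : K} (ha : a ≠ 0) (hb : b ≠ 0) {d : L} (hd : d ≠ 0)
    (hab : algebraMap K L a = algebraMap K L b ^ p * ∏ i ∈ range (m * p), (σ ^ i) d)
    (φ : K →+* ℝ) (h : NmR σ (m * p) φ a) : NmR σM m φ b := by
  let _ : Algebra K ℝ := φ.toAlgebra
  exact nm_down hσ hm hp hσM hfix ha hb hd hab ℝ h

theorem prod_fix {x : L} (hx : (σ ^ m) x = x) (q : ℕ) :
    ∏ i ∈ range (m * q), (σ ^ i) x = (∏ i ∈ range m, (σ ^ i) x) ^ q := by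
  induction q with
  | zero => simp
  | succ q ih =>
    rw [Nat.mul_succ, prod_range_add, ih, pow_succ]
    congr 1
    refine prod_congr rfl fun i _ => ?_
    rw [add_comm, pow_add, AlgEquiv.mul_apply, pow_mul, pow_fix (σ ^ m) hx]

end step

/-- The prime below. -/
theorem exists_below {K M : Type} [Field K] [NumberField K] [Field M] [NumberField M]
    [Algebra K M] (w : HeightOneSpectrum (𝓞 M)) : ∃ v : HeightOneSpectrum (𝓞 K),
      w.asIdeal.comap (algebraMap (𝓞 K) (𝓞 M)) = v.asIdeal := by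
  have h1 : (w.asIdeal.comap (algebraMap (𝓞 K) (𝓞 M))).IsPrime := Ideal.comap_isPrime _ _
  refine ⟨⟨w.asIdeal.comap (algebraMap (𝓞 K) (𝓞 M)), h1, ?_⟩, rfl⟩
  exact Ideal.IsIntegral.comap_ne_bot _ w.ne_bot

/-! ### The tower -/

/-- The middle field. -/
theorem exists_tower {K L : Type} [Field K] [NumberField K] [Field L] [NumberField L]
    [Algebra K L] {m p : ℕ} (hm : 0 < m) (hp : 0 < p) {σ : L ≃ₐ[K] L} (h : Cyc K (m * p) σ) :
    ∃ (M : Type) (_ : Field M) (_ : NumberField M) (_ : Algebra K M) (_ : Algebra M L)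
      (_ : IsScalarTower K M L) (σM : M ≃ₐ[K] M) (τ : L ≃ₐ[M] L),
      Cyc K m σM ∧ Cyc M p τ ∧ (∀ x, τ x = (σ ^ m) x) ∧
      (∀ x, σ (algebraMap M L x) = algebraMap M L (σM x)) ∧
      ∀ x : L, (σ ^ m) x = x ↔ ∃ b : M, algebraMap M L b = x := by
  have hfin := cyc_fin h
  have hord : orderOf (σ ^ m) = p := by
    rw [orderOf_pow, h.ord, Nat.gcd_comm, Nat.gcd_eq_left (Dvd.intro p rfl),
      Nat.mul_div_cancel_left p hm]
  let M : IntermediateField K L := IntermediateField.fixedField (Subgroup.zpowers (σ ^ m))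
  have hmem : ∀ x : L, x ∈ M ↔ (σ ^ m) x = x := by
    intro x
    rw [IntermediateField.mem_fixedField_iff]
    constructor
    · intro hx
      exact hx _ (Subgroup.mem_zpowers _)
    · intro hx g hg
      obtain ⟨i, rfl⟩ := (mem_powers_iff_mem_zpowers.mpr hg)
      exact pow_fix (σ ^ m) hx i
  have hσM : ∀ x : M, σ x ∈ M := by
    intro x
    rw [hmem]
    change (σ ^ m * σ) x = σ x
    rw [← pow_succ, pow_succ', AlgEquiv.mul_apply, (hmem x).mp x.2]
  have hrM : Module.finrank M L = p := by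
    rw [IntermediateField.finrank_fixedField_eq_card, Nat.card_zpowers, hord]
  have hrK : Module.finrank K M = m := by
    have hK : Module.finrank K M * Module.finrank M L = Module.finrank K L :=
      Module.finrank_mul_finrank K M L
    rw [hrM, h.rank] at hK
    exact Nat.eq_of_mul_eq_mul_right hp hK
  let f : M →ₐ[K] M :=
    { toFun := fun x => ⟨σ x, hσM x⟩
      map_one' := Subtype.ext (map_one σ)
      map_mul' := fun x y => Subtype.ext (map_mul σ x.1 y.1)
      map_zero' := Subtype.ext (map_zero σ)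
      map_add' := fun x y => Subtype.ext (map_add σ x.1 y.1)
      commutes' := fun r => Subtype.ext (σ.commutes r) }
  let σM : M ≃ₐ[K] M := AlgEquiv.ofBijective f (Algebra.IsAlgebraic.algHom_bijective f)
  have hσMi : ∀ (i : ℕ) (x : M), ((σM ^ i) x : L) = (σ ^ i) (x : L) := by
    intro i x
    induction i with
    | zero => rfl
    | succ i ih =>
      rw [pow_succ', pow_succ', AlgEquiv.mul_apply, AlgEquiv.mul_apply, ← ih]
      rfl
  let τ : L ≃ₐ[M] L :=
    { (σ ^ m : L ≃ₐ[K] L).toRingEquiv with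
      commutes' := fun r => (hmem _).mp r.2 }
  have hτ : ∀ x, τ x = (σ ^ m) x := fun x => rfl
  have hτi : ∀ (i : ℕ) (x : L), (τ ^ i) x = ((σ ^ m) ^ i) x := by
    intro i x
    induction i with
    | zero => rfl
    | succ i ih => rw [pow_succ', pow_succ', AlgEquiv.mul_apply, AlgEquiv.mul_apply, ih, hτ]
  have hτord : orderOf τ = p := by
    rw [← hord]
    refine orderOf_eq_orderOf_iff.mpr fun i => ?_
    constructor
    · intro h1
      ext x
      rw [← hτi, h1]; rfl
    · intro h1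
      ext x
      rw [hτi, h1]; rfl
  have hσMord : orderOf σM = m := by
    apply Nat.dvd_antisymm
    · apply orderOf_dvd_of_pow_eq_one
      ext x
      rw [hσMi]
      exact (hmem _).mp x.2
    · have h1 : σ ^ orderOf σM ∈ Subgroup.zpowers (σ ^ m) := by
        have h2 : σ ^ orderOf σM ∈ IntermediateField.fixingSubgroup M := by
          rw [IntermediateField.mem_fixingSubgroup_iff]
          intro x hx
          have h3 := hσMi (orderOf σM) ⟨x, hx⟩
          rw [pow_orderOf_eq_one] at h3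
          exact h3.symm
        rwa [IntermediateField.fixingSubgroup_fixedField] at h2
      obtain ⟨j, hj⟩ := mem_powers_iff_mem_zpowers.mpr h1
      have hj' : σ ^ (m * j) = σ ^ orderOf σM := by rw [pow_mul]; exact hj
      rw [pow_eq_pow_iff_modEq, h.ord] at hj'
      have h4 : m * j ≡ orderOf σM [MOD m] := hj'.of_mul_right p
      have h5 : 0 ≡ orderOf σM [MOD m] := by
        refine Nat.ModEq.trans ?_ h4
        exact (Nat.modEq_zero_iff_dvd.mpr (Dvd.intro j rfl)).symm
      exact Nat.modEq_zero_iff_dvd.mp h5.symm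
  refine ⟨M, inferInstance, inferInstance, inferInstance, inferInstance, inferInstance, σM, τ,
    ⟨hm, hσMord, hrK⟩, ⟨hp, hτord, hrM⟩, hτ, fun x => rfl, fun x => ?_⟩
  rw [← hmem]
  constructor
  · intro hx
    exact ⟨⟨x, hx⟩, rfl⟩
  · rintro ⟨b, rfl⟩
    exact b.2

/-- [HNT] -/
theorem HNT (hP : HNTPStmt) : HNTStmt := by
  have key : ∀ n : ℕ, ∀ (K L : Type) [Field K] [NumberField K] [Field L] [NumberField L]
      [Algebra K L] (σ : L ≃ₐ[K] L) (_ : Cyc K n σ) (a : K) (_ : a ≠ 0)
      (_ : Loc σ n a), ∃ y : L, ∏ i ∈ range n, (σ ^ i) y = algebraMap K L a := by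
    intro n
    induction n using Nat.strong_induction_on with
    | _ n ih =>
      intro K L _ _ _ _ _ σ hσ a ha hloc
      by_cases h1 : n = 1
      · subst h1
        exact ⟨algebraMap K L a, by simp⟩
      have hpp := Nat.minFac_prime h1
      set p := n.minFac with hp
      obtain ⟨m, hm⟩ := n.minFac_dvd
      rw [← hp, mul_comm] at hm
      have hm0 : 0 < m := Nat.pos_of_ne_zero (by
        rintro rfl
        have := hσ.pos
        omega)
      clear_value p
      subst hm
      obtain ⟨M, _, _, _, _, _, σM, τ, hσM, hτ, hτσ, hσσ, hfix⟩ :=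
        exists_tower hm0 hpp.pos hσ
      have ha' : algebraMap K M a ≠ 0 := (map_ne_zero _).mpr ha
      -- the norm from `L` to `M`
      obtain ⟨c, hc⟩ := hP M L p hpp τ hτ (algebraMap K M a) ha' ⟨fun w => by
        obtain ⟨v, hv⟩ := exists_below (K := K) w
        obtain ⟨g, hg⟩ := Vale.Agent.P011.W.completion_map hv
        exact nm_up hm0 hpp.pos hτσ ha _ _ g hg (hloc.1 v), fun φ =>
        nmR_up hm0 hpp.pos hτσ ha φ (hloc.2 _)⟩
      obtain ⟨b, d, hb, hd, hab⟩ := step_field hσ hm0 hτσ ha hc hpp.pos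
      obtain ⟨x, hx⟩ := ih m (by
        have := hpp.one_lt
        nlinarith) K M σM hσM b hb ⟨fun v =>
          nm_down hσ hm0 hpp.pos hσσ hfix ha hb hd hab _ (hloc.1 v), fun φ =>
          nmR_down hσ hm0 hpp.pos hσσ hfix ha hb hd hab φ (hloc.2 φ)⟩
      refine ⟨algebraMap M L x * d, ?_⟩
      have hx1 : (σ ^ m) (algebraMap M L x) = algebraMap M L x := (hfix _).mpr ⟨x, rfl⟩
      have hx2 : ∏ i ∈ range m, (σ ^ i) (algebraMap M L x) = algebraMap K L b := by
        rw [IsScalarTower.algebraMap_apply K M L, ← hx, map_prod]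
        refine prod_congr rfl fun i hi => ?_
        clear hi
        induction i with
        | zero => rfl
        | succ i ih' =>
          rw [pow_succ', pow_succ', AlgEquiv.mul_apply, AlgEquiv.mul_apply, ih', hσσ]
      simp only [map_mul, prod_mul_distrib]
      rw [prod_fix hx1, hx2, hab]
  intro K L _ _ _ _ _ n σ h a ha hl
  exact key n K L σ h a ha hl

end Vale.Agent.P022.H17
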